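import Vale.Agent.N324P.Defs
import Mathlib.MeasureTheory.Constructions.BorelSpace.Order
import Mathlib.MeasureTheory.Integral.Lebesgue.Add

/-!
Schedules in which every job gets a set of unit slots; rounding of preemptive schedules.
-/

namespace Vale.Agent.N324P

open Finset MeasureTheory

variable {n m : ℕ} {G : Digraph (Fin n)}

/-- Job `v` occupies the `q v` slots in `S v`. -/
structure Sets (m : ℕ) (G : Digraph (Fin n)) (q : Fin n → ℕ) (T : ℕ) (S : Fin n → Finset ℕ) :
    Prop where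
  sub : ∀ v, ∀ t ∈ S v, 1 ≤ t ∧ t ≤ T
  card : ∀ v, (S v).card = q v
  cap : ∀ t, (univ.filter fun v => t ∈ S v).card ≤ m
  arc : ∀ u v, G.Adj u v → ∀ s ∈ S u, ∀ t ∈ S v, s < t

theorem Sets.shrink {q q' : Fin n → ℕ} {T : ℕ} {S : Fin n → Finset ℕ} (h : Sets m G q T S)
    (hq : ∀ v, q' v ≤ q v) : ∃ S', Sets m G q' T S' := by
  choose S' h1 h2 using fun v => exists_subset_card_eq (s := S v) (n := q' v) (h.card v ▸ hq v)
  refine ⟨S', fun v t ht => h.sub v t (h1 v ht), h2, fun t => le_trans (card_le_card ?_) (h.cap t),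
    fun u v huv s hs t ht => h.arc u v huv s (h1 u hs) t (h1 v ht)⟩
  intro v hv
  exact mem_filter.2 ⟨mem_univ _, h1 v (mem_filter.1 hv).2⟩

/-- The wrap-around rule. -/
theorem wrap (m L : ℕ) (b : Fin n → ℕ) (h1 : ∀ v, b v ≤ L) (h2 : ∑ v, b v ≤ m * L) :
    ∃ R : Fin n → Finset ℕ, (∀ v, ∀ t ∈ R v, t < L) ∧ (∀ v, (R v).card = b v) ∧
      ∀ t, (univ.filter fun v => t ∈ R v).card ≤ m := by
  set B : Fin n → ℕ := fun v => ∑ u ∈ univ.filter (fun u => u < v), b u with hB
  have key : ∀ (v : Fin n) (s : Finset (Fin n)), (∀ u, u ≤ v → u ∈ s) → B v + b v ≤ ∑ u ∈ s, b u := by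
    intro v s hs
    rw [hB, add_comm]
    beta_reduce
    rw [← sum_insert (by simp)]
    refine sum_le_sum_of_subset fun u hu => hs u ?_
    rcases mem_insert.1 hu with rfl | hu
    · exact le_rfl
    · exact (mem_filter.1 hu).2.le
  refine ⟨fun v => (range (b v)).image fun j => (B v + j) % L, fun v t ht => ?_, fun v => ?_,
    fun t => ?_⟩
  · obtain ⟨j, hj, rfl⟩ := mem_image.1 ht
    have := mem_range.1 hj
    have := h1 v
    exact Nat.mod_lt _ (by omega)
  · rw [card_image_of_injOn, card_range]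
    intro j hj j' hj' e
    have a1 := mem_range.1 (mem_coe.1 hj)
    have a2 := mem_range.1 (mem_coe.1 hj')
    have := h1 v
    exact Nat.ModEq.eq_of_lt_of_lt (Nat.ModEq.add_left_cancel' (B v) e) (by omega) (by omega)
  · have ex : ∀ v : Fin n, ∃ j, t ∈ (range (b v)).image (fun j => (B v + j) % L) →
        j < b v ∧ (B v + j) % L = t := fun v => by
      by_cases h : t ∈ (range (b v)).image (fun j => (B v + j) % L)
      · obtain ⟨j, hj, e⟩ := mem_image.1 h
        exact ⟨j, fun _ => ⟨mem_range.1 hj, e⟩⟩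
      · exact ⟨0, fun h' => absurd h' h⟩
    choose j hj using ex
    have lt : ∀ u v : Fin n, u < v → j u < b u → (B u + j u) % L = t → (B v + j v) % L = t →
        (B u + j u) / L ≠ (B v + j v) / L := fun u v huv a1 a2 a3 e => by
      have b1 := Nat.div_add_mod (B u + j u) L
      have b2 := Nat.div_add_mod (B v + j v) L
      have b3 : B u + b u ≤ B v := key u _ fun x hx => mem_filter.2 ⟨mem_univ _, hx.trans_lt huv⟩
      rw [e, a2] at b1
      rw [a3] at b2
      omega
    refine le_trans (card_le_card_of_injOn (t := range m) (fun v => (B v + j v) / L)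
      (fun v hv => ?_) fun u hu v hv e => ?_) (by simp)
    · obtain ⟨a1, -⟩ := hj v (mem_filter.1 (mem_coe.1 hv)).2
      have := key v univ fun _ _ => mem_univ _
      have := h1 v
      exact mem_coe.2 (mem_range.2 ((Nat.div_lt_iff_lt_mul (by omega)).2 (by omega)))
    · obtain ⟨a1, a2⟩ := hj u (mem_filter.1 (mem_coe.1 hu)).2
      obtain ⟨a3, a4⟩ := hj v (mem_filter.1 (mem_coe.1 hv)).2
      rcases lt_trichotomy u v with h | h | h
      · exact absurd e (lt u v h a1 a2 a4)
      · exact h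
      · exact absurd e.symm (lt v u h a3 a4 a2)

/-- Consecutive phases of independent jobs. -/
theorem phases (b : Fin n → ℕ → ℕ) (L : ℕ → ℕ) (h1 : ∀ v k, b v k ≤ L k)
    (h2 : ∀ k, ∑ v, b v k ≤ m * L k)
    (h3 : ∀ u v, G.Adj u v → ∀ k k', 0 < b u k → 0 < b v k' → k < k') (K : ℕ) :
    ∃ S, Sets m G (fun v => ∑ k ∈ range K, b v k) (∑ k ∈ range K, L k) S := by
  induction K with
  | zero => exact ⟨fun _ => ∅, by simp, by simp, by simp, by simp⟩
  | succ K ih =>
    obtain ⟨S, hS⟩ := ih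
    obtain ⟨R, r1, r2, r3⟩ := wrap m (L K) (fun v => b v K) (fun v => h1 v K) (h2 K)
    set O := ∑ k ∈ range K, L k with hO
    have old : ∀ v t, t ∈ S v → ∃ k < K, 0 < b v k := fun v t ht => by
      by_contra hc
      push Not at hc
      have := hS.card v
      rw [sum_eq_zero fun k hk => Nat.le_zero.1 (hc k (mem_range.1 hk)), card_eq_zero] at this
      rw [this] at ht
      exact notMem_empty _ ht
    have new : ∀ v t, t ∈ (R v).image (fun x => O + 1 + x) → 0 < b v K ∧ O < t ∧ t ≤ O + L K :=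
      fun v t ht => by
      obtain ⟨x, hx, rfl⟩ := mem_image.1 ht
      have := r1 v x hx
      exact ⟨r2 v ▸ card_pos.2 ⟨x, hx⟩, by omega, by omega⟩
    refine ⟨fun v => S v ∪ (R v).image (fun x => O + 1 + x), fun v t ht => ?_, fun v => ?_,
      fun t => ?_, fun u v huv s hs t ht => ?_⟩
    · rw [sum_range_succ]
      rcases mem_union.1 ht with h | h
      · have := hS.sub v t h
        omega
      · have := new v t h
        omega
    · rw [card_union_of_disjoint, hS.card, card_image_of_injective _ (add_right_injective _), r2,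
        sum_range_succ]
      refine disjoint_left.2 fun t h h' => ?_
      have := hS.sub v t h
      have := new v t h'
      omega
    · by_cases ht : t ≤ O
      · refine le_trans (card_le_card fun v hv => ?_) (hS.cap t)
        rcases mem_union.1 (mem_filter.1 hv).2 with h | h
        · exact mem_filter.2 ⟨mem_univ _, h⟩
        · have := new v t h
          omega
      · refine le_trans (card_le_card fun v hv => ?_) (r3 (t - (O + 1)))
        rcases mem_union.1 (mem_filter.1 hv).2 with h | h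
        · have := hS.sub v t h
          omega
        · obtain ⟨x, hx, rfl⟩ := mem_image.1 h
          exact mem_filter.2 ⟨mem_univ _, by rwa [Nat.add_sub_cancel_left]⟩
    · rcases mem_union.1 hs with h | h <;> rcases mem_union.1 ht with h' | h'
      · exact hS.arc u v huv s h t h'
      · have := hS.sub u s h
        have := new v t h'
        omega
      · obtain ⟨k, hk, h4⟩ := old v t h'
        have := h3 u v huv K k (new u s h).1 h4
        omega
      · have := h3 u v huv K K (new u s h).1 (new v t h').1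
        omega

theorem ncard_eq (P : Fin n → Prop) [DecidablePred P] :
    {v | P v}.ncard = (univ.filter P).card := by
  rw [← Set.ncard_coe_finset]
  congr 1
  ext v
  simp

/-- At most `m` jobs at a time. -/
theorem sum_volume_le {A : Fin n → Set ℝ} (hA : ∀ v, MeasurableSet (A v))
    (hc : ∀ t, {v | t ∈ A v}.ncard ≤ m) (J : Set ℝ) :
    ∑ v, volume (A v ∩ J) ≤ m * volume J := by
  classical
  calc ∑ v, volume (A v ∩ J) = ∑ v, ∫⁻ t in J, (A v).indicator 1 t := by
        refine sum_congr rfl fun v _ => ?_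
        rw [lintegral_indicator_one (hA v), Measure.restrict_apply (hA v)]
    _ = ∫⁻ t in J, ∑ v, (A v).indicator 1 t :=
        (lintegral_finsetSum _ fun v _ => measurable_one.indicator (hA v)).symm
    _ ≤ ∫⁻ _ in J, (m : ENNReal) := by
        refine lintegral_mono fun t => ?_
        have := hc t
        rw [ncard_eq] at this
        simp only [Set.indicator_apply, Pi.one_apply, sum_boole]
        exact_mod_cast this
    _ = m * volume J := by simp

/-- Rounding a preemptive schedule to a grid. -/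
theorem round (hm : 1 ≤ m) {p : Fin n → ℕ} {C : ℝ} {A : Fin n → Set ℝ} (h : PmtnSched m G p C A)
    (hC : 0 ≤ C) {δ : ℝ} (hδ : 0 < δ) {q : Fin n → ℕ} (hq : ∀ v, q v ≤ ⌈(p v : ℝ) / δ⌉₊) :
    ∃ T S, Sets m G q T S ∧ T * δ ≤ C + (n + 1) ^ 2 * δ := by
  obtain ⟨h1, h2, h3⟩ := h
  set c : Fin n → ℝ := fun v => sSup (A v) with hc
  set ρ : ℝ → ℕ := fun t => (univ.filter fun x => c x < t).card with hρ
  have ρm : Monotone ρ := fun s t hst => card_le_card fun x hx =>
    mem_filter.2 ⟨mem_univ _, (mem_filter.1 hx).2.trans_le hst⟩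
  set J : ℕ → Set ℝ := fun k => ρ ⁻¹' {k} ∩ Set.Icc 0 C with hJ
  have Jm : ∀ k, MeasurableSet (J k) := fun k =>
    (ρm.measurable (measurableSet_singleton k)).inter measurableSet_Icc
  have fin : ∀ X : Set ℝ, X ⊆ Set.Icc 0 C → volume X ≠ ⊤ := fun X hX =>
    ((measure_mono hX).trans_lt (by simp)).ne
  have Jf : ∀ k, volume (J k) ≠ ⊤ := fun k => fin _ Set.inter_subset_right
  have Af : ∀ v k, volume (A v ∩ J k) ≠ ⊤ := fun v k =>
    fin _ (Set.inter_subset_left.trans (h1 v).2.1)
  set a : Fin n → ℕ → ℝ := fun v k => (volume (A v ∩ J k)).toReal with ha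
  set l : ℕ → ℝ := fun k => (volume (J k)).toReal with hl
  have a0 : ∀ v k, 0 ≤ a v k := fun v k => ENNReal.toReal_nonneg
  have l0 : ∀ k, 0 ≤ l k := fun k => ENNReal.toReal_nonneg
  have e1 : ∀ v k, a v k ≤ l k := fun v k =>
    ENNReal.toReal_mono (Jf k) (measure_mono Set.inter_subset_right)
  have e2 : ∀ k, ∑ v, a v k ≤ m * l k := fun k => by
    have := ENNReal.toReal_mono (ENNReal.mul_ne_top (by simp) (Jf k))
      (sum_volume_le (fun v => (h1 v).1) h2 (J k))
    rwa [ENNReal.toReal_sum fun v _ => Af v k, ENNReal.toReal_mul, ENNReal.toReal_natCast] at this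
  have e3 : ∑ k ∈ range (n + 1), l k ≤ C := by
    have b1 : volume (⋃ k ∈ range (n + 1), J k) = ∑ k ∈ range (n + 1), volume (J k) :=
      measure_biUnion_finset (fun k _ k' _ hk => Set.disjoint_left.2 fun t ht ht' =>
        hk ((Set.mem_singleton_iff.1 ht.1).symm.trans ht'.1)) fun k _ => Jm k
    have b2 : volume (⋃ k ∈ range (n + 1), J k) ≤ volume (Set.Icc 0 C) :=
      measure_mono (Set.iUnion₂_subset fun k _ => Set.inter_subset_right)
    have := ENNReal.toReal_mono (by simp) b2
    rwa [b1, ENNReal.toReal_sum fun k _ => Jf k, Real.volume_Icc, sub_zero,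
      ENNReal.toReal_ofReal hC] at this
  have e4 : ∀ v, (p v : ℝ) ≤ ∑ k ∈ range (n + 1), a v k := fun v => by
    have b0 : A v ⊆ ⋃ k ∈ range (n + 1), A v ∩ J k := fun t ht => Set.mem_iUnion₂.2
      ⟨ρ t, mem_range.2 (Nat.lt_succ_of_le ((card_filter_le _ _).trans (by simp))), ht, rfl,
        (h1 v).2.1 ht⟩
    have b1 : volume (A v) ≤ ∑ k ∈ range (n + 1), volume (A v ∩ J k) :=
      le_trans (measure_mono b0) (measure_biUnion_finset_le _ _)
    have := ENNReal.toReal_mono (ENNReal.sum_ne_top.2 fun k _ => Af v k) b1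
    rwa [(h1 v).2.2, ENNReal.toReal_natCast, ENNReal.toReal_sum fun k _ => Af v k] at this
  have pos : ∀ v k, 0 < ⌈a v k / δ⌉₊ → ∀ x : ℝ, ∃ t ∈ A v, t ≠ x ∧ ρ t = k := fun v k hk x => by
    by_contra hn
    push Not at hn
    have b1 : A v ∩ J k ⊆ {x} := fun t ht => by
      by_contra ht'
      exact hn t ht.1 ht' ht.2.1
    have b2 : a v k = 0 := by
      rw [ha]
      beta_reduce
      rw [measure_mono_null b1 (by simp), ENNReal.toReal_zero]
    simp [b2] at hk
  have c2 : ∀ k, ∑ v, ⌈a v k / δ⌉₊ ≤ m * (⌈l k / δ⌉₊ + n) := fun k => by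
    have b1 : ((∑ v, ⌈a v k / δ⌉₊ : ℕ) : ℝ) ≤ ∑ v : Fin n, (a v k / δ + 1) := by
      push_cast
      exact sum_le_sum fun v _ => (Nat.ceil_lt_add_one (div_nonneg (a0 v k) hδ.le)).le
    rw [sum_add_distrib, ← sum_div, sum_const, card_univ, Fintype.card_fin, nsmul_eq_mul,
      mul_one] at b1
    have b2 : (∑ v, a v k) / δ ≤ m * ⌈l k / δ⌉₊ := by
      refine le_trans ?_ (mul_le_mul_of_nonneg_left (Nat.le_ceil _) (Nat.cast_nonneg m))
      rw [← mul_div_assoc]
      have := e2 k
      gcongr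
    have b3 : (n : ℝ) ≤ m * n := le_mul_of_one_le_left (Nat.cast_nonneg n) (by exact_mod_cast hm)
    have b4 : ((∑ v, ⌈a v k / δ⌉₊ : ℕ) : ℝ) ≤ ((m * (⌈l k / δ⌉₊ + n) : ℕ) : ℝ) := by
      rw [Nat.cast_mul, Nat.cast_add, mul_add]
      linarith
    exact_mod_cast b4
  have c3 : ∀ u v, G.Adj u v → ∀ k k', 0 < ⌈a u k / δ⌉₊ → 0 < ⌈a v k' / δ⌉₊ → k < k' := by
    intro u v huv k k' hk hk'
    obtain ⟨s, hs, -, rfl⟩ := pos u k hk 0
    obtain ⟨t, ht, ht', rfl⟩ := pos v k' hk' (c u)
    have b1 : s ≤ c u := le_csSup ⟨C, fun x hx => ((h1 u).2.1 hx).2⟩ hs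
    have b2 : c u < t := lt_of_le_of_ne (csSup_le ⟨s, hs⟩ fun x hx => h3 u v huv x hx t ht) ht'.symm
    refine card_lt_card ⟨fun x hx => mem_filter.2 ⟨mem_univ _,
      (mem_filter.1 hx).2.trans (b1.trans_lt b2)⟩, fun h' => ?_⟩
    exact absurd (mem_filter.1 (h' (mem_filter.2 ⟨mem_univ u, b2⟩))).2 (not_lt.2 b1)
  obtain ⟨S, hS⟩ := phases (m := m) (G := G) (fun v k => ⌈a v k / δ⌉₊) (fun k => ⌈l k / δ⌉₊ + n)
    (fun v k => le_add_right (Nat.ceil_mono (by have := e1 v k; gcongr))) c2 c3 (n + 1)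
  obtain ⟨S', hS'⟩ := hS.shrink (q' := q) fun v => (hq v).trans (Nat.ceil_le.2 (by
    push_cast
    refine le_trans ?_ (sum_le_sum fun k _ => Nat.le_ceil _)
    rw [← sum_div]
    have := e4 v
    gcongr))
  refine ⟨_, S', hS', ?_⟩
  have b1 : ((∑ k ∈ range (n + 1), (⌈l k / δ⌉₊ + n) : ℕ) : ℝ) ≤
      ∑ k ∈ range (n + 1), (l k / δ + (n + 1)) := by
    push_cast
    refine sum_le_sum fun k _ => ?_
    have := Nat.ceil_lt_add_one (div_nonneg (l0 k) hδ.le)
    linarith
  rw [sum_add_distrib (f := fun k => l k / δ), ← sum_div, sum_const, card_range,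
    nsmul_eq_mul] at b1
  have b2 := mul_le_mul_of_nonneg_right b1 hδ.le
  rw [add_mul, div_mul_cancel₀ _ hδ.ne'] at b2
  push_cast at b2 ⊢
  nlinarith

end Vale.Agent.N324P
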