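import Mathlib.Combinatorics.Digraph.Basic
import Mathlib.Computability.TuringMachine.Computable
import Mathlib.Data.Nat.Bits
import Mathlib.Data.Set.Card
import Mathlib.MeasureTheory.Measure.Lebesgue.Basic

/-!
Precedence constrained scheduling on `m` machines: unit jobs, preemptive jobs of arbitrary length,
unit time open shops. Problems are sets of binary words or functions on binary words.
-/

namespace Vale.Agent.N324P

/-- The function is computed in polynomial time by a deterministic Turing machine with finite
alphabets. -/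
def PolyTime (f : List Bool → List Bool) : Prop :=
  ∃ M : Turing.TM2ComputableInPolyTime id id f, ∀ k, Finite (M.tm.Γ k)

/-- The class P. -/
def InP (L : Set (List Bool)) : Prop :=
  ∃ f, PolyTime f ∧ ∀ w, (w ∈ L → f w = [true]) ∧ (w ∉ L → f w = [false])

variable {n : ℕ}

/-- No directed cycle. -/
def Acyclic (G : Digraph (Fin n)) : Prop := ∀ v, ¬ Relation.TransGen G.Adj v v

/-- A schedule of length `T` of unit jobs on `m` machines. -/
def UnitSched (m : ℕ) (G : Digraph (Fin n)) (T : ℕ) (τ : Fin n → ℕ) : Prop :=
  (∀ v, τ v ∈ Set.Icc 1 T) ∧ (∀ t, {v | τ v = t}.ncard ≤ m) ∧ ∀ u v, G.Adj u v → τ u < τ v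

/-- A preemptive schedule of length `C` on `m` machines: job `v` is processed at the times in
`A v`. -/
def PmtnSched (m : ℕ) (G : Digraph (Fin n)) (p : Fin n → ℕ) (C : ℝ) (A : Fin n → Set ℝ) : Prop :=
  (∀ v, MeasurableSet (A v) ∧ A v ⊆ Set.Icc 0 C ∧ MeasureTheory.volume (A v) = p v) ∧
  (∀ t, {v | t ∈ A v}.ncard ≤ m) ∧ ∀ u v, G.Adj u v → ∀ s ∈ A u, ∀ t ∈ A v, s ≤ t

/-- An open shop schedule of length `T`: machine `i` processes job `v` in the slot `s v i`. -/
def ShopSched (m : ℕ) (G : Digraph (Fin n)) (T : ℕ) (s : Fin n → Fin m → ℕ) : Prop :=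
  (∀ v i, s v i ∈ Set.Icc 1 T) ∧ (∀ v, Function.Injective (s v)) ∧
  (∀ i, Function.Injective fun v => s v i) ∧ ∀ u v, G.Adj u v → ∀ i j, s u i < s v j

open Classical in
/-- The code of a digraph: `n` ones, a zero, the adjacency matrix row by row. -/
noncomputable def code (G : Digraph (Fin n)) : List Bool :=
  List.replicate n true ++ false ::
    (List.ofFn fun u => List.ofFn fun v => decide (G.Adj u v)).flatten

/-- The code of a pair: every bit of `x` is preceded by a one, then a zero, then `y`. -/
def pair (x y : List Bool) : List Bool := (x.flatMap fun b => [true, b]) ++ false :: y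

/-- The code of a list of numbers, in binary. -/
def nums (l : List ℕ) : List Bool := l.foldr (fun a w => pair a.bits w) []

/-- The code of a list of lists of numbers. -/
def rows (l : List (List ℕ)) : List Bool := l.foldr (fun a w => pair (nums a) w) []

/-- The union of the intervals `[a / K, b / K)` over the entries `[v, a, b]` of the list. -/
def pieces (K : ℕ) (l : List (List ℕ)) (v : Fin n) : Set ℝ :=
  {t | ∃ a b : ℕ, [v.val, a, b] ∈ l ∧ (a : ℝ) / K ≤ t ∧ t < (b : ℝ) / K}

end Vale.Agent.N324P
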