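import Vale.Agent.N324P.Comb
import Vale.Agent.P324.Final
import Vale.Agent.P324.Core5

/-!
Codes, the class P, and the replacement of jobs by chains of unit jobs.
-/

namespace Vale.Agent.N324P

open List Vale.Agent.Lib.PolyTime Vale.Agent.P324

variable {n m : ℕ} {G : Digraph (Fin n)}

theorem core (m : ℕ) : Core m (m + 11) :=
  fun _ _ _ _ htr hinj hmono _ _ h => dec_of_sch htr hinj hmono h

/-! ### Codes -/

theorem pair_eq (x y : List Bool) : pair x y = pr x y := by
  induction x with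
  | nil => rfl
  | cons b x ih => rw [pr, ← ih]; rfl

theorem nums_eq (l : List ℕ) : nums l = enc l := by
  induction l with
  | nil => rfl
  | cons a l ih => rw [enc_cons, ← ih, ← pair_eq]; rfl

theorem rows_eq (l : List (List ℕ)) : rows l = enc l := by
  induction l with
  | nil => rfl
  | cons a l ih => rw [enc_cons, ← ih, ← nums_eq, ← pair_eq]; rfl

theorem polyTime_of {g : Word → Word} (hg : FP ∅ g) : PolyTime g :=
  exists_tm2_of_polyTimeFun id id g g (polyTimeFun_iff.2 hg) fun _ => rfl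

/-- The graph given by a Boolean function. -/
def mkG (N : ℕ) (f : ℕ → ℕ → Bool) : Graph := ⟨N, fun u v => f u v⟩

/-- Its code. -/
def mkW (N : ℕ) (f : ℕ → ℕ → Bool) : List Bool :=
  replicate N true ++ false :: (range N).flatMap fun u => (range N).map fun v => f u v

theorem ofFn_val {β : Type*} (N : ℕ) (f : ℕ → β) :
    (List.ofFn fun u : Fin N => f u) = (range N).map f :=
  ext_getElem (by simp) fun i _ _ => by simp

theorem mkW_eq (N : ℕ) (f : ℕ → ℕ → Bool) : mkW N f = (mkG N f).code := by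
  unfold mkW Graph.code unary mkG
  simp only [ofFn_val N (f _)]
  rw [ofFn_val N fun u => (range N).map (f u), append_assoc, singleton_append, flatMap_def]

variable {A : Set Word} {α : Type*} [Enc α]

theorem pt_mkW {N : α → ℕ} {f : α → ℕ → ℕ → Bool} (hN : PT A N) (hb : PBd N)
    (hf : PT A fun p : (α × ℕ) × ℕ => f p.1.1 p.1.2 p.2) : PT A fun a => mkW (N a) (f a) :=
  (PT.replicate hN hb (PT.const true)).append (PT.cons (PT.const false)
    (PT.flatMap (f := fun a u => (range (N a)).map fun v => f a u v) (PT.range hN hb)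
      (PT.map (f := fun (p : α × ℕ) v => f p.1 p.2 v) ((PT.range hN hb).comp PT.fst') hf)))

open Classical in
/-- The adjacency matrix of a digraph. -/
noncomputable def toG (G : Digraph (Fin n)) : Graph := ⟨n, fun u v => decide (G.Adj u v)⟩

theorem code_eq (G : Digraph (Fin n)) : code G = (toG G).code := by
  unfold code Graph.code unary toG
  rw [append_assoc, singleton_append]

theorem nW_cd (G : Digraph (Fin n)) (r : List Bool) : nW (code G ++ r) = n := by
  rw [code_eq]; exact nW_code _ r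

theorem arcW_cd (G : Digraph (Fin n)) (r : List Bool) (u v : Fin n) :
    arcW (code G ++ r) u v = true ↔ G.Adj u v := by
  rw [code_eq, arcW_code (toG G) r u v]
  simp [toG]

theorem toG_arc : (fun u w => (toG G).arc u w = true) = G.Adj := by
  ext u w
  simp [toG]

theorem acyclic_iff : (toG G).Acyclic ↔ Acyclic G := by
  unfold Graph.Acyclic Acyclic
  rw [toG_arc]
  rfl

theorem sched_iff {T : ℕ} {τ : Fin n → ℕ} : IsSchedule m (toG G) T τ ↔ UnitSched m G T τ := by
  refine and_congr (forall_congr' fun v => by simp) (and_congr (forall_congr' fun t => ?_)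
    (forall_congr' fun u => forall_congr' fun v => by simp [toG]))
  rw [ncard_eq]
  rfl

theorem eq_iff_zip (x y : List Bool) :
    x = y ↔ x.length = y.length ∧ ∀ e ∈ x.zip y, e.1 = e.2 := by
  induction x generalizing y with
  | nil => cases y <;> simp
  | cons a x ih =>
    cases y with
    | nil => simp
    | cons b y =>
      rw [cons.injEq, ih, zip_cons_cons, forall_mem_cons, length_cons, length_cons, Nat.succ_inj]
      tauto

theorem pt_eq {x y : α → List Bool} (hx : PT A x) (hy : PT A y) :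
    PT A fun a => decide (x a = y a) :=
  ((hx.length.eqNat hy.length).and (PT.all (f := fun _ (e : Bool × Bool) => !(Bool.xor e.1 e.2))
    (hx.zip hy) (PT.snd'.fst.xor PT.snd'.snd).not)).congr fun a => by
      rw [Bool.eq_iff_iff, decide_eq_true_eq, eq_iff_zip]
      simp

/-- The word is the code of an instance. -/
def chk (w : List Bool) : Bool :=
  decide (w = mkW (nW w) (arcW w) ++ (lenW w).bits) && decide (1 ≤ nW w) && decide (1 ≤ lenW w)

theorem pt_chk : PT A chk :=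
  ((pt_eq PT.id ((pt_mkW (f := fun w => arcW w) (pt_nW PT.id) (pbd_nW (A := A) PT.id)
    (pt_arcW PT.fst'.fst PT.fst'.snd PT.snd')).append (pt_lenW PT.id).natBits)).and
    ((PT.const 1).le (pt_nW PT.id))).and ((PT.const 1).le (pt_lenW PT.id))

theorem chk_iff (w : List Bool) : chk w = true ↔
    ∃ (n : ℕ) (G : Digraph (Fin n)) (T : ℕ), 1 ≤ n ∧ 1 ≤ T ∧ w = code G ++ T.bits := by
  simp only [chk, Bool.and_eq_true, decide_eq_true_eq]
  constructor
  · rintro ⟨⟨h1, h2⟩, h3⟩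
    refine ⟨nW w, ⟨fun u v => arcW w u v = true⟩, lenW w, h2, h3, h1.trans ?_⟩
    rw [mkW_eq, code_eq]
    simp [toG, mkG]
  · rintro ⟨n, G, T, h1, h2, rfl⟩
    have e : lenW (code G ++ T.bits) = T := by rw [code_eq]; exact lenW_code _ T
    rw [e, nW_cd, mkW_eq]
    refine ⟨⟨?_, h1⟩, h2⟩
    congr 1
    rw [code_eq G]
    congr 1
    unfold toG mkG
    congr 1
    ext u v
    exact (arcW_code (toG G) T.bits u v).symm

theorem inP_unit (m : ℕ) : InP {w | ∃ (n : ℕ) (G : Digraph (Fin n)) (T : ℕ), 1 ≤ n ∧ 1 ≤ T ∧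
    Acyclic G ∧ w = code G ++ T.bits ∧ ∃ τ, UnitSched m G T τ} := by
  obtain ⟨g, hg, h⟩ : PT ∅ (fun w : Raw => chk w.w && decideW m (m + 11) w.w) :=
    (pt_chk.and (pt_decideW m (m + 11))).comp (PT.listOfRaw PT.id)
  have key : ∀ (n : ℕ) (G : Digraph (Fin n)) (T : ℕ),
      decideW m (m + 11) (code G ++ T.bits) = true ↔ ∃ τ, IsSchedule m (toG G) T τ :=
    fun n G T => by rw [code_eq]; exact decideW_iff (core m) _ T
  refine ⟨g, polyTime_of hg, fun w => ⟨?_, fun hw => ?_⟩⟩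
  · rintro ⟨n, G, T, h1, h2, -, rfl, τ, h3⟩
    refine (h ⟨code G ++ T.bits⟩).trans ?_
    beta_reduce
    rw [enc_bool, (chk_iff _).2 ⟨n, G, T, h1, h2, rfl⟩, (key n G T).2 ⟨τ, sched_iff.2 h3⟩]
    rfl
  · refine (h ⟨w⟩).trans ?_
    rw [enc_bool]
    congr 1
    by_contra hc
    rw [Bool.not_eq_false, Bool.and_eq_true] at hc
    obtain ⟨n, G, T, h1, h2, rfl⟩ := (chk_iff w).1 hc.1
    obtain ⟨τ, hτ⟩ := (key n G T).1 hc.2
    exact hw ⟨n, G, T, h1, h2, acyclic_iff.1 hτ.acyclic, rfl, τ, sched_iff.1 hτ⟩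

theorem search_unit (hm : 1 ≤ m) : ∃ f, PolyTime f ∧ ∀ (n : ℕ) (G : Digraph (Fin n)), Acyclic G →
    ∃ T τ, f (code G) = nums (List.ofFn τ) ∧ UnitSched m G T τ ∧
      ∀ T' τ', UnitSched m G T' τ' → T ≤ T' := by
  obtain ⟨g, hg, h⟩ : PT ∅ (fun w : Raw => schedW m (m + 11) w.w) :=
    (pt_schedW m (m + 11)).comp (PT.listOfRaw PT.id)
  refine ⟨g, polyTime_of hg, fun n G hG => ?_⟩
  obtain ⟨T, τ, h1, h2, h3⟩ := schedW_spec (core m) hm (toG G) (acyclic_iff.2 hG)
  rw [← code_eq] at h1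
  exact ⟨T, τ, (h ⟨code G⟩).trans ((congrArg enc h1).trans (nums_eq _).symm), sched_iff.1 h2,
    fun T' τ' h' => h3 T' τ' (sched_iff.2 h')⟩

/-! ### Chains of unit jobs -/

/-- `H` arises from `G` by replacing each job `v` by a chain of `q v` unit jobs. -/
structure Exp (G : Digraph (Fin n)) (q : Fin n → ℕ) (H : Graph) (jb : Fin H.n → Fin n)
    (ix : Fin H.n → ℕ) : Prop where
  lt : ∀ x, ix x < q (jb x)
  inj : ∀ x y, jb x = jb y → ix x = ix y → x = y
  surj : ∀ v, ∀ j < q v, ∃ x, jb x = v ∧ ix x = j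
  arc : ∀ x y, H.arc x y = true ↔ (jb x = jb y ∧ ix x < ix y) ∨ G.Adj (jb x) (jb y)

variable {q : Fin n → ℕ} {H : Graph} {jb : Fin H.n → Fin n} {ix : Fin H.n → ℕ}

theorem Exp.acyclic (h : Exp G q H jb ix) (hG : Acyclic G) : H.Acyclic := by
  have key : ∀ x y, Relation.TransGen (fun u w => H.arc u w = true) x y →
      (jb x = jb y ∧ ix x < ix y) ∨ Relation.TransGen G.Adj (jb x) (jb y) := by
    intro x y hxy
    induction hxy with
    | single h1 => exact ((h.arc _ _).1 h1).imp id .single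
    | tail _ h1 ih =>
      rcases ih with ⟨a, b⟩ | a <;> rcases (h.arc _ _).1 h1 with ⟨c, d⟩ | c
      · exact Or.inl ⟨a.trans c, b.trans d⟩
      · exact Or.inr (.single (a ▸ c))
      · exact Or.inr (c ▸ a)
      · exact Or.inr (a.tail c)
  intro x hx
  rcases key x x hx with ⟨-, a⟩ | a
  · exact lt_irrefl _ a
  · exact hG _ a

theorem Exp.of_sets (h : Exp G q H jb ix) {T : ℕ} {S : Fin n → Finset ℕ} (hS : Sets m G q T S) :
    ∃ τ, IsSchedule m H T τ := by
  set τ : Fin H.n → ℕ := fun x => (S (jb x)).orderEmbOfFin (hS.card _) ⟨ix x, h.lt x⟩ with hτ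
  have mem : ∀ x, τ x ∈ S (jb x) := fun x => Finset.orderEmbOfFin_mem _ _ _
  have lt : ∀ x y, jb x = jb y → (τ x < τ y ↔ ix x < ix y) := fun x y e => by
    have key : ∀ (u v : Fin n) (i j : ℕ) (hi : i < q u) (hj : j < q v), u = v →
        ((S u).orderEmbOfFin (hS.card _) ⟨i, hi⟩ < (S v).orderEmbOfFin (hS.card _) ⟨j, hj⟩ ↔
          i < j) := by
      rintro u v i j hi hj rfl
      rw [OrderEmbedding.lt_iff_lt, Fin.mk_lt_mk]
    exact key _ _ _ _ _ _ e
  refine ⟨τ, fun x => Finset.mem_Icc.2 (hS.sub _ _ (mem x)), fun t => ?_, fun x y hxy => ?_⟩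
  · refine le_trans (Finset.card_le_card_of_injOn jb (fun x hx => ?_) fun x hx y hy e => ?_)
      (hS.cap t)
    · have := mem x
      rw [(Finset.mem_filter.1 (Finset.mem_coe.1 hx)).2] at this
      exact Finset.mem_coe.2 (Finset.mem_filter.2 ⟨Finset.mem_univ _, this⟩)
    · have a1 := (Finset.mem_filter.1 (Finset.mem_coe.1 hx)).2
      have a2 := (Finset.mem_filter.1 (Finset.mem_coe.1 hy)).2
      have a3 := lt x y e
      have a4 := lt y x e.symm
      exact h.inj x y e (by omega)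
  · rcases (h.arc x y).1 hxy with ⟨a, b⟩ | a
    · exact (lt x y a).2 b
    · exact hS.arc _ _ a _ (mem x) _ (mem y)

theorem Exp.sum (h : Exp G q H jb ix) {M : Type*} [AddCommMonoid M] (v : Fin n) (f : ℕ → M) :
    ∑ x ∈ Finset.univ.filter (fun x => jb x = v), f (ix x) = ∑ j ∈ Finset.range (q v), f j := by
  refine Finset.sum_bij (fun x _ => ix x) (fun x hx => ?_) (fun x hx y hy e => ?_)
    (fun j hj => ?_) fun _ _ => rfl
  · exact Finset.mem_range.2 ((Finset.mem_filter.1 hx).2 ▸ h.lt x)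
  · exact h.inj x y ((Finset.mem_filter.1 hx).2.trans (Finset.mem_filter.1 hy).2.symm) e
  · obtain ⟨x, h1, h2⟩ := h.surj v j (Finset.mem_range.1 hj)
    exact ⟨x, Finset.mem_filter.2 ⟨Finset.mem_univ _, h1⟩, h2⟩

theorem Exp.eq (h : Exp G q H jb ix) {T : ℕ} {τ : Fin H.n → ℕ} (hτ : IsSchedule m H T τ)
    {x y : Fin H.n} (e : jb x = jb y) (e' : τ x = τ y) : x = y := by
  refine h.inj x y e ?_
  rcases lt_trichotomy (ix x) (ix y) with a | a | a
  · exact absurd e' (hτ.2.2 x y ((h.arc x y).2 (Or.inl ⟨e, a⟩))).ne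
  · exact a
  · exact absurd e' (hτ.2.2 y x ((h.arc y x).2 (Or.inl ⟨e.symm, a⟩))).ne'

/-- The unit jobs. -/
def nodes (n : ℕ) (q : ℕ → ℕ) : List (ℕ × ℕ) :=
  (range n).flatMap fun v => (range (q v)).map fun j => (v, j)

theorem mem_nodes {q : ℕ → ℕ} {e : ℕ × ℕ} : e ∈ nodes n q ↔ e.1 < n ∧ e.2 < q e.1 := by
  simp only [nodes, mem_flatMap, mem_map, mem_range]
  constructor
  · rintro ⟨v, h1, j, h2, rfl⟩
    exact ⟨h1, h2⟩
  · rintro ⟨h1, h2⟩
    exact ⟨_, h1, _, h2, rfl⟩

theorem nodup_nodes (n : ℕ) (q : ℕ → ℕ) : (nodes n q).Nodup := by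
  refine nodup_flatMap.2 ⟨fun v _ => nodup_range.map fun a b e => (Prod.mk.inj e).2,
    nodup_range.imp fun {a b} hab => ?_⟩
  intro e h1 h2
  obtain ⟨_, _, rfl⟩ := mem_map.1 h1
  obtain ⟨_, _, h⟩ := mem_map.1 h2
  exact hab (Prod.mk.inj h).1.symm

/-- The arcs between the unit jobs. -/
def expF (w : List Bool) (E : List (ℕ × ℕ)) (x y : ℕ) : Bool :=
  (decide ((E.getD x (0, 0)).1 = (E.getD y (0, 0)).1) &&
    decide ((E.getD x (0, 0)).2 < (E.getD y (0, 0)).2)) ||
    arcW w (E.getD x (0, 0)).1 (E.getD y (0, 0)).1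

/-- A shortest schedule of the unit jobs. -/
def unitW (m : ℕ) (w : List Bool) (E : List (ℕ × ℕ)) : List ℕ :=
  schedW m (m + 11) (mkW E.length (expF w E))

theorem pt_nodes {N : α → ℕ} {q : α → ℕ → ℕ} (hN : PT A N) (hb : PBd N)
    (hq : PT A fun p : α × ℕ => q p.1 p.2) (hqb : PBd fun p : α × ℕ => q p.1 p.2) :
    PT A fun a => nodes (N a) (q a) :=
  PT.flatMap (f := fun a v => (range (q a v)).map fun j => (v, j)) (PT.range hN hb)
    (PT.map (f := fun (p : α × ℕ) j => (p.2, j)) (PT.range hq hqb) (PT.fst'.snd.pair PT.snd'))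

theorem pt_unitW (m : ℕ) {w : α → List Bool} {E : α → List (ℕ × ℕ)} (hw : PT A w) (hE : PT A E) :
    PT A fun a => unitW m (w a) (E a) := by
  have h1 : PT A fun p : (α × ℕ) × ℕ => (E p.1.1).getD p.1.2 (0, 0) :=
    PT.getD (hE.comp PT.fst'.fst) PT.fst'.snd (PT.const _)
  have h2 : PT A fun p : (α × ℕ) × ℕ => (E p.1.1).getD p.2 (0, 0) :=
    PT.getD (hE.comp PT.fst'.fst) PT.snd' (PT.const _)
  exact (pt_schedW m (m + 11)).comp (pt_mkW (f := fun a => expF (w a) (E a)) hE.length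
    (PBd.length hE) (((h1.fst.eqNat h2.fst).and (h1.snd.lt h2.snd)).or
      (pt_arcW (hw.comp PT.fst'.fst) h1.fst h2.fst)))

theorem unitW_spec (hm : 1 ≤ m) (hG : Acyclic G) (q : ℕ → ℕ) :
    ∃ (H : Graph) (jb : Fin H.n → Fin n) (ix : Fin H.n → ℕ) (T : ℕ) (τ : Fin H.n → ℕ),
      Exp G (fun v => q v) H jb ix ∧ (nodes n q).length = H.n ∧
      (∀ x : Fin H.n, (nodes n q).getD x (0, 0) = ((jb x).val, ix x)) ∧
      (∀ x : Fin H.n, (unitW m (code G) (nodes n q)).getD x 0 = τ x) ∧ IsSchedule m H T τ ∧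
      ∀ T' S, Sets m G (fun v => q v) T' S → T ≤ T' := by
  set E := nodes n q with hE
  have mem : ∀ x : Fin E.length, E.getD x (0, 0) ∈ E := fun x => by
    rw [getD_eq_getElem _ _ x.2]
    exact getElem_mem _
  have hx : Exp G (fun v => q v) (mkG E.length (expF (code G) E))
      (fun x => ⟨(E.getD x (0, 0)).1, (mem_nodes.1 (mem x)).1⟩) fun x => (E.getD x (0, 0)).2 := by
    refine ⟨fun x => (mem_nodes.1 (mem x)).2, fun x y e e' => ?_, fun v j hj => ?_, fun x y => ?_⟩
    · have : E.getD x (0, 0) = E.getD y (0, 0) := Prod.ext (Fin.mk.inj e) e'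
      rw [getD_eq_getElem _ _ x.2, getD_eq_getElem _ _ y.2] at this
      exact Fin.ext ((nodup_nodes n q).getElem_inj_iff.1 this)
    · obtain ⟨x, hx, e⟩ := getElem_of_mem ((mem_nodes (e := (v.val, j))).2 ⟨v.2, hj⟩)
      have e' : E.getD x (0, 0) = (v.val, j) := (getD_eq_getElem _ _ hx).trans e
      exact ⟨⟨x, hx⟩, Fin.ext (congrArg Prod.fst e'), congrArg Prod.snd e'⟩
    · have := arcW_cd G [] ⟨_, (mem_nodes.1 (mem x)).1⟩ ⟨_, (mem_nodes.1 (mem y)).1⟩
      rw [append_nil] at this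
      rw [← this, Fin.mk.injEq]
      simp only [mkG, expF, Bool.or_eq_true, Bool.and_eq_true, decide_eq_true_eq]
  obtain ⟨T, τ, h1, h2, h3⟩ := schedW_spec (core m) hm _ (hx.acyclic hG)
  refine ⟨_, _, _, T, τ, hx, rfl, fun x => rfl, fun x => ?_, h2, fun T' S hS => ?_⟩
  · rw [unitW, mkW_eq, h1, getD_eq_getElem _ _ (by rw [length_ofFn]; exact x.2), List.getElem_ofFn]
  · obtain ⟨τ', h'⟩ := hx.of_sets hS
    exact h3 T' τ' h'

end Vale.Agent.N324P
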