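import Vale.Agent.N324P.Exp

/-!
The approximation scheme for preemptive scheduling.
-/

namespace Vale.Agent.N324P

open List Vale.Agent.Lib.PolyTime Vale.Agent.P324 MeasureTheory

variable {n m : ℕ} {G : Digraph (Fin n)}

/-- The number of slots of a job. -/
def cnt (K : ℕ) (p : List ℕ) (v : ℕ) : ℕ := min K ((p.getD v 0 * K + p.sum - 1) / p.sum)

/-- The piece that belongs to a unit job. -/
def piece (K : ℕ) (p : List ℕ) (e : ℕ × ℕ) (t : ℕ) : List ℕ :=
  [e.1, (t - 1) * p.sum, (t - 1) * p.sum + min p.sum (p.getD e.1 0 * K - e.2 * p.sum)]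

/-- All pieces. -/
def allP (m K : ℕ) (w : List Bool) (p : List ℕ) (E : List (ℕ × ℕ)) : List (List ℕ) :=
  (range E.length).map fun x => piece K p (E.getD x (0, 0)) ((unitW m w E).getD x 0)

/-- The approximation scheme. -/
def fptas (m : ℕ) (w : List Bool) (p : List ℕ) (k : ℕ) : ℕ × List (List ℕ) :=
  (k * (nW w + 1) ^ 3,
    allP m (k * (nW w + 1) ^ 3) w p (nodes (nW w) (cnt (k * (nW w + 1) ^ 3) p)))

section

variable {A : Set Word} {α : Type*} [Enc α] {K : α → ℕ} {p : α → List ℕ}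

theorem pt_cnt {v : α → ℕ} (hK : PT A K) (hp : PT A p) (hv : PT A v) :
    PT A fun a => cnt (K a) (p a) (v a) :=
  hK.min (((((PT.getD hp hv (PT.const 0)).mul hK).add hp.sum).sub (PT.const 1)).div hp.sum)

theorem pt_piece {e : α → ℕ × ℕ} {t : α → ℕ} (hK : PT A K) (hp : PT A p) (he : PT A e)
    (ht : PT A t) : PT A fun a => piece (K a) (p a) (e a) (t a) :=
  PT.cons he.fst (PT.cons ((ht.sub (PT.const 1)).mul hp.sum) (PT.cons
    (((ht.sub (PT.const 1)).mul hp.sum).add (hp.sum.min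
      (((PT.getD hp he.fst (PT.const 0)).mul hK).sub (he.snd.mul hp.sum)))) PT.nil))

theorem pt_allP (m : ℕ) {w : α → List Bool} {E : α → List (ℕ × ℕ)} (hK : PT A K) (hw : PT A w)
    (hp : PT A p) (hE : PT A E) : PT A fun a => allP m (K a) (w a) (p a) (E a) :=
  PT.map (f := fun a x => piece (K a) (p a) ((E a).getD x (0, 0))
      ((unitW m (w a) (E a)).getD x 0)) (PT.range hE.length (PBd.length hE))
    (pt_piece (hK.comp PT.fst') (hp.comp PT.fst')
      (PT.getD (hE.comp PT.fst') PT.snd' (PT.const (0, 0)))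
      (PT.getD ((pt_unitW m hw hE).comp PT.fst') PT.snd' (PT.const 0)))

theorem pt_fptas (m : ℕ) {w : α → List Bool} {k : α → ℕ} (hw : PT A w) (hp : PT A p)
    (hk : PT A k) (hb : PBd k) : PT A fun a => fptas m (w a) (p a) (k a) := by
  have hK : PT A fun a => k a * (nW (w a) + 1) ^ 3 :=
    hk.mul (((pt_nW hw).add (PT.const 1)).powConst 3)
  have hKb : PBd fun a => k a * (nW (w a) + 1) ^ 3 :=
    hb.mul (((pbd_nW hw).add (PBd.const 1)).pow 3)
  exact hK.pair (pt_allP m hK hw hp (pt_nodes (q := fun a => cnt (k a * (nW (w a) + 1) ^ 3) (p a))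
    (pt_nW hw) (pbd_nW hw) (pt_cnt (hK.comp PT.fst') (hp.comp PT.fst') PT.snd')
    ((hKb.comp (A := A) PT.fst').mono fun _ => min_le_left _ _)))

end

theorem sum_min (P x q : ℕ) : ∑ j ∈ Finset.range q, min P (x - j * P) = min (q * P) x := by
  induction q with
  | zero => simp
  | succ q ih =>
    rw [Finset.sum_range_succ, ih, Nat.succ_mul]
    omega

theorem pieces_ok {q p : Fin n → ℕ} {H : Graph} {jb : Fin H.n → Fin n} {ix : Fin H.n → ℕ}
    (h : Exp G q H jb ix) {T : ℕ} {τ : Fin H.n → ℕ} (hτ : IsSchedule m H T τ) {K P : ℕ}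
    (hK : 1 ≤ K) (hq : ∀ v, p v * K ≤ q v * P) {A : Fin n → Set ℝ}
    (hA : ∀ v t, t ∈ A v ↔ ∃ x, jb x = v ∧ (((τ x - 1) * P : ℕ) : ℝ) / K ≤ t ∧
      t < (((τ x - 1) * P + min P (p v * K - ix x * P) : ℕ) : ℝ) / K) :
    PmtnSched m G p (T * P / K) A := by
  classical
  have K0 : (0 : ℝ) < K := by exact_mod_cast hK
  set I : Fin H.n → Set ℝ := fun x => Set.Ico ((((τ x - 1) * P : ℕ) : ℝ) / K)
    ((((τ x - 1) * P + min P (p (jb x) * K - ix x * P) : ℕ) : ℝ) / K) with hI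
  have eA : ∀ v, A v = ⋃ x ∈ Finset.univ.filter (fun x => jb x = v), I x := fun v => by
    ext t
    rw [hA, Set.mem_iUnion₂]
    constructor
    · rintro ⟨x, rfl, h1⟩
      exact ⟨x, Finset.mem_filter.2 ⟨Finset.mem_univ _, rfl⟩, h1⟩
    · rintro ⟨x, hx, h1⟩
      obtain rfl := (Finset.mem_filter.1 hx).2
      exact ⟨x, rfl, h1⟩
  have mA : ∀ v t, t ∈ A v → ∃ x, jb x = v ∧ t ∈ I x := fun v t ht => by
    obtain ⟨x, rfl, h1⟩ := (hA v t).1 ht
    exact ⟨x, rfl, h1⟩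
  have up : ∀ x t, t ∈ I x → ∀ j, τ x ≤ j → t < ((j * P : ℕ) : ℝ) / K := fun x t ht j hj => by
    refine ht.2.trans_le (div_le_div_of_nonneg_right (Nat.cast_le.2 ?_) K0.le)
    have a1 := (Finset.mem_Icc.1 (hτ.1 x)).1
    have a2 := Nat.mul_le_mul_right P hj
    have a3 : (τ x - 1) * P + P = τ x * P := by
      rw [← Nat.succ_mul, Nat.succ_eq_add_one, Nat.sub_add_cancel a1]
    omega
  have lt : ∀ x y s t, s ∈ I x → t ∈ I y → τ x < τ y → s < t := fun x y s t hs ht hxy =>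
    (up x s hs (τ y - 1) (by omega)).trans_le ht.1
  have eq : ∀ x y t, t ∈ I x → t ∈ I y → τ x = τ y := fun x y t hx hy => by
    rcases lt_trichotomy (τ x) (τ y) with a | a | a
    · exact absurd (lt x y t t hx hy a) (lt_irrefl _)
    · exact a
    · exact absurd (lt y x t t hy hx a) (lt_irrefl _)
  refine ⟨fun v => ⟨?_, fun t ht => ?_, ?_⟩, fun t => ?_, fun u v huv s hs t ht => ?_⟩
  · rw [eA]
    exact Finset.measurableSet_biUnion _ fun x _ => measurableSet_Ico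
  · obtain ⟨x, -, hx⟩ := mA v t ht
    have := up x t hx T (Finset.mem_Icc.1 (hτ.1 x)).2
    rw [Nat.cast_mul] at this
    exact ⟨le_trans (by positivity) hx.1, this.le⟩
  · rw [eA, measure_biUnion_finset (fun x hx y hy hxy => Set.disjoint_left.2 fun t a1 a2 => hxy
      (h.eq hτ ((Finset.mem_filter.1 hx).2.trans (Finset.mem_filter.1 hy).2.symm) (eq x y t a1 a2)))
      fun x _ => measurableSet_Ico]
    have e1 : ∀ x ∈ Finset.univ.filter (fun x => jb x = v), volume (I x) =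
        ENNReal.ofReal (((min P (p v * K - ix x * P) : ℕ) : ℝ) / K) := fun x hx => by
      obtain rfl := (Finset.mem_filter.1 hx).2
      rw [hI, Real.volume_Ico, ← sub_div, Nat.cast_add, add_sub_cancel_left]
    rw [Finset.sum_congr rfl e1, h.sum v fun j =>
      ENNReal.ofReal (((min P (p v * K - j * P) : ℕ) : ℝ) / K),
      ← ENNReal.ofReal_sum_of_nonneg fun j _ => by positivity, ← Finset.sum_div, ← Nat.cast_sum,
      sum_min, min_eq_right (hq v), Nat.cast_mul, mul_div_cancel_right₀ _ K0.ne',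
      ENNReal.ofReal_natCast]
  · rw [ncard_eq]
    rcases (Finset.univ.filter fun v => t ∈ A v).eq_empty_or_nonempty with h0 | ⟨v, hv⟩
    · rw [h0]
      exact Nat.zero_le _
    · obtain ⟨x, -, hx⟩ := mA v t (Finset.mem_filter.1 hv).2
      refine le_trans (Finset.card_le_card fun u hu => ?_)
        ((Finset.card_image_le (f := jb)).trans (hτ.2.1 (τ x)))
      obtain ⟨y, h1, hy⟩ := mA u t (Finset.mem_filter.1 hu).2
      exact Finset.mem_image.2 ⟨y, Finset.mem_filter.2 ⟨Finset.mem_univ _, eq y x t hy hx⟩, h1⟩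
  · obtain ⟨x, rfl, hx⟩ := mA u s hs
    obtain ⟨y, rfl, hy⟩ := mA v t ht
    exact (lt x y s t hx hy (hτ.2.2 x y ((h.arc x y).2 (Or.inr huv)))).le

theorem fptas_spec (hm : 1 ≤ m) (hn : 1 ≤ n) (hG : Acyclic G) {p : Fin n → ℕ} (hp : ∀ v, 1 ≤ p v)
    {k : ℕ} (hk : 1 ≤ k) : ∃ (K : ℕ) (l : List (List ℕ)) (C : ℝ),
      fptas m (code G) (ofFn p) k = (K, l) ∧ 1 ≤ K ∧ PmtnSched m G p C (pieces K l) ∧
      ∀ C' A', PmtnSched m G p C' A' → C ≤ (1 + 1 / k) * C' := by
  have e0 : nW (code G) = n := by simpa using nW_cd G []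
  set K := k * (n + 1) ^ 3 with hK
  have K1 : 1 ≤ K := Nat.mul_pos hk (by positivity)
  set P := (ofFn p).sum with hP
  have eP : P = ∑ v, p v := sum_ofFn
  have pP : ∀ v, p v ≤ P := fun v =>
    eP ▸ Finset.single_le_sum (fun _ _ => Nat.zero_le _) (Finset.mem_univ v)
  have P1 : 1 ≤ P := (hp ⟨0, hn⟩).trans (pP _)
  have gp : ∀ v : Fin n, (ofFn p).getD v 0 = p v := fun v => by
    rw [getD_eq_getElem _ _ (by simp), List.getElem_ofFn]
  have eq : ∀ v : Fin n, cnt K (ofFn p) v = (p v * K + P - 1) / P := fun v => by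
    rw [cnt, gp, ← hP, min_eq_right]
    refine Nat.le_of_lt_succ ((Nat.div_lt_iff_lt_mul P1).2 ?_)
    have := Nat.mul_le_mul_right K (pP v)
    rw [Nat.succ_mul, mul_comm K]
    omega
  obtain ⟨H, jb, ix, T, τ, h1, h2, h3, h4, h5, h6⟩ := unitW_spec hm hG (cnt K (ofFn p))
  refine ⟨K, _, T * P / K, by rw [fptas, e0], K1, pieces_ok h1 h5 K1 (fun v => ?_) fun v t => ?_,
    fun C' A' h' => ?_⟩
  · rw [eq]
    have a1 := Nat.div_add_mod (p v * K + P - 1) P
    have a2 := Nat.mod_lt (p v * K + P - 1) P1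
    rw [mul_comm] at a1
    omega
  · constructor
    · rintro ⟨a, b, hab, ht⟩
      obtain ⟨x, hx, e⟩ := mem_map.1 hab
      rw [mem_range, h2] at hx
      rw [h3 ⟨x, hx⟩, h4 ⟨x, hx⟩, piece, gp, ← hP] at e
      simp only [cons.injEq, and_true] at e
      obtain ⟨e1, rfl, rfl⟩ := e
      obtain rfl := Fin.ext e1
      exact ⟨_, rfl, ht⟩
    · rintro ⟨x, rfl, ht⟩
      refine ⟨_, _, mem_map.2 ⟨x, by rw [mem_range, h2]; exact x.2, ?_⟩, ht⟩
      rw [h3 x, h4 x, piece, gp]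
  · have K0 : (0 : ℝ) < K := by exact_mod_cast K1
    have P0 : (0 : ℝ) < P := by exact_mod_cast P1
    have k0 : (0 : ℝ) < k := by exact_mod_cast hk
    have pC : ∀ v, (p v : ℝ) ≤ C' := fun v => by
      have a1 := measure_mono (μ := volume) (h'.1 v).2.1
      rw [(h'.1 v).2.2, Real.volume_Icc, sub_zero, ← ENNReal.ofReal_natCast,
        ENNReal.ofReal_le_ofReal_iff'] at a1
      have a2 : (1 : ℝ) ≤ p v := by exact_mod_cast hp v
      exact a1.resolve_right (by linarith)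
    have C0 : 0 ≤ C' := (Nat.cast_nonneg _).trans (pC ⟨0, hn⟩)
    have PC : (P : ℝ) ≤ n * C' := by
      rw [eP, Nat.cast_sum]
      simpa using Finset.sum_le_sum fun v (_ : v ∈ Finset.univ) => pC v
    obtain ⟨T', S, a1, a2⟩ := round hm h' C0 (δ := P / K) (by positivity)
      (q := fun v => cnt K (ofFn p) v) fun v => by
        rw [eq]
        have b1 := Nat.le_ceil ((p v : ℝ) / (P / K))
        rw [div_le_iff₀ (by positivity), ← mul_div_assoc, le_div_iff₀ K0] at b1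
        have b2 : p v * K ≤ ⌈(p v : ℝ) / (P / K)⌉₊ * P := by exact_mod_cast b1
        refine Nat.le_of_lt_succ ((Nat.div_lt_iff_lt_mul P1).2 ?_)
        rw [Nat.succ_mul]
        omega
    have a3 : (T : ℝ) ≤ T' := by exact_mod_cast h6 T' S a1
    have a4 : ((n : ℝ) + 1) ^ 2 * (P / K) ≤ 1 / k * C' := by
      rw [← mul_div_assoc, one_div, inv_mul_eq_div, div_le_div_iff₀ K0 k0, hK]
      push_cast
      have b1 : (P : ℝ) ≤ (n + 1) * C' := by linarith
      calc ((n : ℝ) + 1) ^ 2 * P * k ≤ (n + 1) ^ 2 * ((n + 1) * C') * k := by gcongr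
        _ = C' * (k * (n + 1) ^ 3) := by ring
    have a5 : (T : ℝ) * (P / K) ≤ T' * (P / K) := by gcongr
    rw [mul_div_assoc]
    linarith

theorem search_pmtn (hm : 1 ≤ m) : ∃ f, PolyTime f ∧
    ∀ (n : ℕ) (G : Digraph (Fin n)) (p : Fin n → ℕ) (k : ℕ), 1 ≤ n → Acyclic G →
      (∀ v, 1 ≤ p v) → 1 ≤ k → ∃ (K : ℕ) (l : List (List ℕ)) (C : ℝ),
        f (pair (code G) (pair (nums (List.ofFn p)) (List.replicate k true))) =
          pair K.bits (rows l) ∧ 1 ≤ K ∧ PmtnSched m G p C (pieces K l) ∧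
        ∀ C' A', PmtnSched m G p C' A' → C ≤ (1 + 1 / k) * C' := by
  obtain ⟨g, hg, h⟩ : PT ∅ fun a : Raw × List ℕ × Un => fptas m a.1.w a.2.1 a.2.2.v :=
    pt_fptas m (PT.listOfRaw PT.fst') PT.snd'.fst (PT.unVal PT.snd'.snd)
      (PBd.unVal (A := ∅) PT.snd'.snd)
  refine ⟨g, polyTime_of hg, fun n G p k hn hG hp hk => ?_⟩
  obtain ⟨K, l, C, h1, h2⟩ := fptas_spec hm hn hG hp hk
  refine ⟨K, l, C, ?_, h2⟩
  rw [pair_eq, pair_eq, pair_eq, nums_eq, rows_eq]
  exact (h (⟨code G⟩, ofFn p, ⟨k⟩)).trans (congrArg enc h1)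

end Vale.Agent.N324P
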