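import Vale.Agent.N324P.Exp

/-!
Edge colouring of bipartite graphs by alternating paths, and unit time open shops.
-/

namespace Vale.Agent.N324P

open List Vale.Agent.Lib.PolyTime Vale.Agent.P324

/-- The first `k` edges are coloured properly with the colours `1, …, m`. -/
structure Col (m : ℕ) (J S c : ℕ → ℕ) (k : ℕ) : Prop where
  zero : ∀ y, k ≤ y → c y = 0
  rng : ∀ y < k, 1 ≤ c y ∧ c y ≤ m
  prop : ∀ y z, c y ≠ 0 → c y = c z → J y = J z ∨ S y = S z → y = z

theorem Col.step {m x a b : ℕ} {J S c c' : ℕ → ℕ} (h : Col m J S c x) (Z : ℕ → Prop)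
    (a1 : 1 ≤ a) (a2 : a ≤ m) (b1 : 1 ≤ b) (b2 : b ≤ m) (ha : ∀ z, J z = J x → c z ≠ a)
    (hb : ∀ z, S z = S x → c z ≠ b)
    (hZ : ∀ y, Z y ↔ (c y = a ∧ S y = S x) ∨ ∃ z, Z z ∧
      ((c y = a ∧ c z = b ∧ S y = S z) ∨ (c y = b ∧ c z = a ∧ J y = J z)))
    (e1 : c' x = a) (e2 : ∀ y, y ≠ x → Z y → c y = a → c' y = b)
    (e3 : ∀ y, y ≠ x → Z y → c y ≠ a → c' y = a) (e4 : ∀ y, y ≠ x → ¬ Z y → c' y = c y) :
    Col m J S c' (x + 1) := by
  have ab : ∀ y, Z y → c y = a ∨ c y = b := fun y hy => by
    rcases (hZ y).1 hy with h1 | ⟨z, -, h1 | h1⟩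
    exacts [Or.inl h1.1, Or.inl h1.1, Or.inr h1.1]
  have kx : ∀ z, z ≠ x → c' z = a → ¬ (J x = J z ∨ S x = S z) := fun z hz e hadj => by
    by_cases hZz : Z z
    · by_cases h1 : c z = a
      · have h2 := e2 z hz hZz h1
        rcases hadj with h3 | h3
        · exact ha z h3.symm h1
        · exact hb z h3.symm (by omega)
      · rcases hadj with h3 | h3
        · rcases (hZ z).1 hZz with h4 | ⟨w, -, h4 | h4⟩
          · exact h1 h4.1
          · exact h1 h4.1
          · exact ha w (h4.2.2.symm.trans h3.symm) h4.2.1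
        · exact hb z h3.symm ((ab z hZz).resolve_left h1)
    · have h1 := e4 z hz hZz
      rcases hadj with h3 | h3
      · exact ha z h3.symm (by omega)
      · exact hZz ((hZ z).2 (Or.inl ⟨by omega, h3.symm⟩))
  have kz : ∀ y z, y ≠ x → z ≠ x → Z y → ¬ Z z → c' y = c' z → ¬ (J y = J z ∨ S y = S z) :=
    fun y z hy hz h1 h2 e hadj => by
    have h3 := e4 z hz h2
    by_cases h4 : c y = a
    · have h5 : c z = b := by have := e2 y hy h1 h4; omega
      rcases hadj with h6 | h6
      · exact h2 ((hZ z).2 (Or.inr ⟨y, h1, Or.inr ⟨h5, h4, h6.symm⟩⟩))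
      · rcases (hZ y).1 h1 with h7 | ⟨w, h7, h8 | h8⟩
        · exact hb z (h6.symm.trans h7.2) h5
        · exact h2 (h.prop w z (by omega) (by omega) (Or.inr (h8.2.2.symm.trans h6)) ▸ h7)
        · exact h2 (h.prop y z (by omega) (by omega) (Or.inr h6) ▸ h1)
    · have h5 : c z = a := by have := e3 y hy h1 h4; omega
      have h9 := (ab y h1).resolve_left h4
      rcases hadj with h6 | h6
      · rcases (hZ y).1 h1 with h7 | ⟨w, h7, h8 | h8⟩
        · exact h4 h7.1
        · exact h4 h8.1
        · exact h2 (h.prop w z (by omega) (by omega) (Or.inl (h8.2.2.symm.trans h6)) ▸ h7)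
      · exact h2 ((hZ z).2 (Or.inr ⟨y, h1, Or.inl ⟨h5, h9, h6.symm⟩⟩))
  refine ⟨fun y hy => ?_, fun y hy => ?_, fun y z h0 e hadj => ?_⟩
  · have h1 := h.zero y (by omega)
    rw [e4 y (by omega) fun h2 => by have := ab y h2; omega, h1]
  · by_cases h1 : y = x
    · rw [h1]
      omega
    · by_cases h2 : Z y
      · by_cases h3 : c y = a
        · have := e2 y h1 h2 h3
          omega
        · have := e3 y h1 h2 h3
          omega
      · rw [e4 y h1 h2]
        exact h.rng y (by omega)
  · by_contra hyz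
    by_cases h1 : y = x
    · exact kx z (fun h2 => hyz (h1.trans h2.symm)) (by rw [← e, h1, e1]) (h1 ▸ hadj)
    · by_cases h2 : z = x
      · exact kx y h1 (by rw [e, h2, e1]) (h2 ▸ hadj.imp Eq.symm Eq.symm)
      · by_cases h3 : Z y <;> by_cases h4 : Z z
        · have h5 := ab y h3
          have h6 := ab z h4
          have h7 := e2 y h1 h3
          have h8 := e3 y h1 h3
          have h9 := e2 z h2 h4
          have h10 := e3 z h2 h4
          exact hyz (h.prop y z (by omega) (by omega) hadj)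
        · exact kz y z h1 h2 h3 h4 e hadj
        · exact kz z y h2 h1 h4 h3 e.symm (hadj.imp Eq.symm Eq.symm)
        · rw [e4 y h1 h3] at h0 e
          rw [e4 z h2 h4] at e
          exact hyz (h.prop y z h0 e hadj)

/-- A colour that is missing at `y`. -/
def free (m N : ℕ) (L c : List ℕ) (y : ℕ) : ℕ :=
  ((range m).find? fun i => (range N).all fun z =>
    !(decide (L.getD z 0 = y) && decide (c.getD z 0 = i + 1))).getD 0 + 1

/-- The arcs of the alternating path; `N` is the root. -/
def kemF (N : ℕ) (J S c : List ℕ) (a b t y z : ℕ) : Bool :=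
  if z = N then decide (c.getD y 0 = a) && decide (S.getD y 0 = t) else
    (decide (c.getD y 0 = a) && decide (c.getD z 0 = b) && decide (S.getD y 0 = S.getD z 0)) ||
    (decide (c.getD y 0 = b) && decide (c.getD z 0 = a) && decide (J.getD y 0 = J.getD z 0))

/-- Recolouring. -/
def recol (N : ℕ) (c Z : List ℕ) (a b x : ℕ) : List ℕ :=
  (range N).map fun y => if y = x then a else if y ∈ Z then (if c.getD y 0 = a then b else a)
    else c.getD y 0

/-- One more edge is coloured. -/
def cstep (m N : ℕ) (J S : List ℕ) (x : ℕ) (c : List ℕ) : List ℕ :=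
  recol N c (predL (mkW (N + 1) (kemF N J S c (free m N J c (J.getD x 0))
    (free m N S c (S.getD x 0)) (S.getD x 0))) N) (free m N J c (J.getD x 0))
    (free m N S c (S.getD x 0)) x

/-- The colouring of the first `k` edges. -/
def colour (m N : ℕ) (J S : List ℕ) (k : ℕ) : List ℕ :=
  Nat.rec (motive := fun _ => List ℕ) [] (cstep m N J S) k

/-- The table of slots. -/
def table (m n N : ℕ) (J S c : List ℕ) : List (List ℕ) :=
  (range n).map fun v => (range m).map fun i => S.getD (((range N).find? fun z =>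
    decide (J.getD z 0 = v) && decide (c.getD z 0 = i + 1)).getD 0) 0

/-- The algorithm for open shops. -/
def shop (m : ℕ) (w : List Bool) (E : List (ℕ × ℕ)) : List (List ℕ) :=
  table m (nW w) E.length (E.map Prod.fst) (unitW m w E)
    (colour m E.length (E.map Prod.fst) (unitW m w E) E.length)

theorem free_le (m N : ℕ) (L c : List ℕ) (y : ℕ) : free m N L c y ≤ m + 1 := by
  unfold free
  cases e : (range m).find? _ with
  | none => simp
  | some i =>
    have := mem_range.1 (mem_of_find?_eq_some e)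
    simp only [Option.getD_some]
    omega

theorem getD_range {N : ℕ} (f : ℕ → ℕ) (y : ℕ) :
    ((range N).map f).getD y 0 = if y < N then f y else 0 := by
  split_ifs with h
  · rw [getD_eq_getElem _ _ (by simpa using h)]
    simp
  · exact getD_eq_default _ _ (by simpa using h)

theorem colour_le (m N : ℕ) (J S : List ℕ) (k : ℕ) :
    (colour m N J S k).length ≤ N ∧ ∀ y, (colour m N J S k).getD y 0 ≤ m + 1 := by
  induction k with
  | zero => simp [colour]
  | succ k ih =>
    refine ⟨(by simp [cstep, recol] : (cstep m N J S k (colour m N J S k)).length ≤ N),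
      fun y => (?_ : (cstep m N J S k (colour m N J S k)).getD y 0 ≤ m + 1)⟩
    rw [cstep, recol, getD_range]
    split_ifs
    exacts [free_le .., free_le .., free_le .., ih.2 y, Nat.zero_le _]

section

variable {A : Set Word} {α : Type*} [Enc α] {N : α → ℕ} {J S c : α → List ℕ}

theorem pt_get {i : α → ℕ} (hc : PT A c) (hi : PT A i) : PT A fun a => (c a).getD (i a) 0 :=
  PT.getD hc hi (PT.const 0)

theorem pt_free (m : ℕ) {y : α → ℕ} (hN : PT A N) (hb : PBd N) (hJ : PT A J) (hc : PT A c)
    (hy : PT A y) : PT A fun a => free m (N a) (J a) (c a) (y a) :=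
  ((PT.find? (f := fun a i => (range (N a)).all fun z =>
    !(decide ((J a).getD z 0 = y a) && decide ((c a).getD z 0 = i + 1))) (PT.const (range m))
    (PT.all (f := fun (p : α × ℕ) z =>
      !(decide ((J p.1).getD z 0 = y p.1) && decide ((c p.1).getD z 0 = p.2 + 1)))
      ((PT.range hN hb).comp PT.fst')
      (((pt_get (hJ.comp PT.fst'.fst) PT.snd').eqNat (hy.comp PT.fst'.fst)).and
        ((pt_get (hc.comp PT.fst'.fst) PT.snd').eqNat
          (PT.fst'.snd.add (PT.const 1)))).not)).optGetD (PT.const 0)).add (PT.const 1)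

theorem pt_kemF {a b t y z : α → ℕ} (hN : PT A N) (hJ : PT A J) (hS : PT A S) (hc : PT A c)
    (ha : PT A a) (hb : PT A b) (ht : PT A t) (hy : PT A y) (hz : PT A z) :
    PT A fun x => kemF (N x) (J x) (S x) (c x) (a x) (b x) (t x) (y x) (z x) :=
  PT.ite (hz.eqNat hN) (((pt_get hc hy).eqNat ha).and ((pt_get hS hy).eqNat ht))
    ((((((pt_get hc hy).eqNat ha).and ((pt_get hc hz).eqNat hb)).and
      ((pt_get hS hy).eqNat (pt_get hS hz)))).or
      ((((pt_get hc hy).eqNat hb).and ((pt_get hc hz).eqNat ha)).and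
        ((pt_get hJ hy).eqNat (pt_get hJ hz))))

theorem pt_recol {Z : α → List ℕ} {a b x : α → ℕ} (hN : PT A N) (hb' : PBd N) (hc : PT A c)
    (hZ : PT A Z) (ha : PT A a) (hb : PT A b) (hx : PT A x) :
    PT A fun p => recol (N p) (c p) (Z p) (a p) (b p) (x p) :=
  PT.map (f := fun p y => if y = x p then a p else if y ∈ Z p then
      (if (c p).getD y 0 = a p then b p else a p) else (c p).getD y 0) (PT.range hN hb')
    (PT.ite (PT.snd'.eqNat (hx.comp PT.fst')) (ha.comp PT.fst')
      (PT.ite (PT.mem (hZ.comp PT.fst') PT.snd')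
        (PT.ite ((pt_get (hc.comp PT.fst') PT.snd').eqNat (ha.comp PT.fst')) (hb.comp PT.fst')
          (ha.comp PT.fst')) (pt_get (hc.comp PT.fst') PT.snd')))

theorem pt_cstep (m : ℕ) {x : α → ℕ} (hN : PT A N) (hb : PBd N) (hJ : PT A J) (hS : PT A S)
    (hx : PT A x) (hc : PT A c) : PT A fun a => cstep m (N a) (J a) (S a) (x a) (c a) := by
  have h1 := pt_free m hN hb hJ hc (pt_get hJ hx)
  have h2 := pt_free m hN hb hS hc (pt_get hS hx)
  exact pt_recol hN hb hc (pt_predL (pt_mkW (f := fun a => kemF (N a) (J a) (S a) (c a)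
    (free m (N a) (J a) (c a) ((J a).getD (x a) 0)) (free m (N a) (S a) (c a) ((S a).getD (x a) 0))
    ((S a).getD (x a) 0)) (hN.add (PT.const 1)) (hb.add (PBd.const 1))
    (pt_kemF (hN.comp PT.fst'.fst) (hJ.comp PT.fst'.fst) (hS.comp PT.fst'.fst)
      (hc.comp PT.fst'.fst) (h1.comp PT.fst'.fst) (h2.comp PT.fst'.fst)
      ((pt_get hS hx).comp PT.fst'.fst) PT.fst'.snd PT.snd')) hN) h1 h2 hx

theorem pt_colour (m : ℕ) (hN : PT A N) (hb : PBd N) (hJ : PT A J) (hS : PT A S) :
    PT A fun a => colour m (N a) (J a) (S a) (N a) := by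
  refine PT.natRec (step := fun a => cstep m (N a) (J a) (S a)) hN hb (PT.const [])
    (pt_cstep m (hN.comp PT.fst') (hb.comp (A := A) PT.fst') (hJ.comp PT.fst') (hS.comp PT.fst')
      PT.snd'.fst PT.snd'.snd) (hb.mul (PBd.const (2 * (m + 1) + 1))) fun a j _ => ?_
  obtain ⟨h1, h2⟩ := colour_le m (N a) (J a) (S a) j
  refine le_trans (esize_list_le (B := m + 1) fun x hx => ?_) (Nat.mul_le_mul_right _ h1)
  obtain ⟨i, hi, rfl⟩ := getElem_of_mem hx
  exact (esize_nat_le_self _).trans ((getD_eq_getElem _ 0 hi).symm.trans_le (h2 i))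

theorem pt_table (m : ℕ) {n : α → ℕ} (hn : PT A n) (hnb : PBd n) (hN : PT A N) (hb : PBd N)
    (hJ : PT A J) (hS : PT A S) (hc : PT A c) :
    PT A fun a => table m (n a) (N a) (J a) (S a) (c a) :=
  PT.map (f := fun a v => (range m).map fun i => (S a).getD (((range (N a)).find? fun z =>
      decide ((J a).getD z 0 = v) && decide ((c a).getD z 0 = i + 1)).getD 0) 0) (PT.range hn hnb)
    (PT.map (f := fun (p : α × ℕ) i => (S p.1).getD (((range (N p.1)).find? fun z =>
      decide ((J p.1).getD z 0 = p.2) && decide ((c p.1).getD z 0 = i + 1)).getD 0) 0)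
      (PT.const (range m)) (pt_get (hS.comp PT.fst'.fst)
        ((PT.find? (f := fun (p : (α × ℕ) × ℕ) z => decide ((J p.1.1).getD z 0 = p.1.2) &&
          decide ((c p.1.1).getD z 0 = p.2 + 1)) ((PT.range hN hb).comp PT.fst'.fst)
          (((pt_get (hJ.comp PT.fst'.fst.fst) PT.snd').eqNat PT.fst'.fst.snd).and
            ((pt_get (hc.comp PT.fst'.fst.fst) PT.snd').eqNat
              (PT.fst'.snd.add (PT.const 1))))).optGetD (PT.const 0))))

theorem pt_shop (m : ℕ) {w : α → List Bool} {E : α → List (ℕ × ℕ)} (hw : PT A w) (hE : PT A E) :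
    PT A fun a => shop m (w a) (E a) := by
  have hJ : PT A fun a => (E a).map Prod.fst :=
    PT.map (f := fun _ (e : ℕ × ℕ) => e.1) hE PT.snd'.fst
  exact pt_table m (pt_nW hw) (pbd_nW hw) hE.length (PBd.length hE) hJ (pt_unitW m hw hE)
    (pt_colour m hE.length (PBd.length hE) hJ (pt_unitW m hw hE))

end

theorem free_spec {m N x : ℕ} {L c : List ℕ} (hx : x < N) (h0 : ∀ y, x ≤ y → c.getD y 0 = 0)
    (hd : ((Finset.range N).filter fun z => L.getD z 0 = L.getD x 0).card ≤ m) :
    1 ≤ free m N L c (L.getD x 0) ∧ free m N L c (L.getD x 0) ≤ m ∧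
      ∀ z, L.getD z 0 = L.getD x 0 → c.getD z 0 ≠ free m N L c (L.getD x 0) := by
  unfold free
  cases e : (range m).find? _ with
  | none =>
    exfalso
    have mx : x ∈ (Finset.range N).filter fun z => L.getD z 0 = L.getD x 0 :=
      Finset.mem_filter.2 ⟨Finset.mem_range.2 hx, rfl⟩
    have sub : Finset.Icc 1 m ⊆ (((Finset.range N).filter fun z =>
        L.getD z 0 = L.getD x 0).erase x).image fun z => c.getD z 0 := fun i hi => by
      obtain ⟨i1, i2⟩ := Finset.mem_Icc.1 hi
      have := find?_eq_none.1 e (i - 1) (mem_range.2 (by omega))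
      simp only [all_eq_true, mem_range, Bool.not_eq_true', Bool.and_eq_false_iff,
        decide_eq_false_iff_not, not_forall, not_or, not_not] at this
      obtain ⟨z, hz, h1, h2⟩ := this
      refine Finset.mem_image.2 ⟨z, Finset.mem_erase.2 ⟨fun h3 => ?_,
        Finset.mem_filter.2 ⟨Finset.mem_range.2 hz, h1⟩⟩, by omega⟩
      have := h0 z h3.ge
      omega
    have h1 := (Finset.card_le_card sub).trans Finset.card_image_le
    rw [Finset.card_erase_of_mem mx, Nat.card_Icc] at h1
    have := Finset.card_pos.2 ⟨x, mx⟩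
    omega
  | some i =>
    have h1 := mem_range.1 (mem_of_find?_eq_some e)
    have h2 := find?_some e
    simp only [all_eq_true, mem_range, Bool.not_eq_true', Bool.and_eq_false_iff,
      decide_eq_false_iff_not] at h2
    simp only [Option.getD_some]
    refine ⟨by omega, by omega, fun z hz => ?_⟩
    by_cases h3 : z < N
    · exact (h2 z h3).resolve_left (not_not.2 hz)
    · rw [h0 z (by omega)]
      omega

theorem mem_predL {N : ℕ} (f : ℕ → ℕ → Bool) {v : ℕ} (hv : v < N) (y : ℕ) :
    y ∈ predL (mkW N f) v ↔ y < N ∧ (f y v = true ∨ ∃ z ∈ predL (mkW N f) v, f y z = true) := by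
  have hn : nW (mkW N f) = N := by simpa [mkW_eq, mkG] using nW_code (mkG N f) []
  have ha : ∀ a < N, ∀ b < N, arcW (mkW N f) a b = f a b := fun a ha b hb => by
    simpa [mkW_eq, mkG] using arcW_code (mkG N f) [] ⟨a, ha⟩ ⟨b, hb⟩
  have h1 : predL (mkW N f) v ⊆ predStep (mkW N f) v (predL (mkW N f) v) := by
    have := iter_subset_succ (mkW N f) v (nW (mkW N f))
    rwa [Function.iterate_succ_apply'] at this
  have h2 : ∀ z ∈ predL (mkW N f) v, z < N := fun z hz => hn ▸ (mem_predStep.1 (h1 hz)).1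
  rw [show y ∈ predL (mkW N f) v ↔ y ∈ predStep (mkW N f) v (predL (mkW N f) v) from
    ⟨fun h => h1 h, fun h => predStep_predL _ _ h⟩, mem_predStep, hn]
  refine and_congr_right fun hy => or_congr (by rw [ha y hy v hv])
    (exists_congr fun z => and_congr_right fun hz => by rw [ha y hy z (h2 z hz)])

theorem colour_spec {m N : ℕ} {J S : List ℕ}
    (hJ : ∀ y, ((Finset.range N).filter fun z => J.getD z 0 = y).card ≤ m)
    (hS : ∀ y, ((Finset.range N).filter fun z => S.getD z 0 = y).card ≤ m) (k : ℕ) (hk : k ≤ N) :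
    Col m (fun y => J.getD y 0) (fun y => S.getD y 0)
      (fun y => (colour m N J S k).getD y 0) k := by
  induction k with
  | zero => exact ⟨by simp [colour], by simp, by simp [colour]⟩
  | succ x ih =>
    have h := ih (by omega)
    set c := colour m N J S x with hc
    obtain ⟨a1, a2, a3⟩ := free_spec (c := c) hk h.zero (hJ _)
    obtain ⟨b1, b2, b3⟩ := free_spec (c := c) hk h.zero (hS _)
    set a := free m N J c (J.getD x 0) with ha
    set b := free m N S c (S.getD x 0) with hb
    set Z := predL (mkW (N + 1) (kemF N J S c a b (S.getD x 0))) N with hZ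
    have e : ∀ y, (colour m N J S (x + 1)).getD y 0 = if y < N then (if y = x then a else
        if y ∈ Z then (if c.getD y 0 = a then b else a) else c.getD y 0) else 0 :=
      fun y => getD_range _ y
    have lt : ∀ y, c.getD y 0 = a ∨ c.getD y 0 = b → y < N := fun y hy => by
      by_contra h1
      have : c.getD y 0 = 0 := h.zero y (by omega)
      omega
    have key : ∀ y, y ∈ Z ↔ (c.getD y 0 = a ∧ S.getD y 0 = S.getD x 0) ∨ ∃ z, z ∈ Z ∧
        ((c.getD y 0 = a ∧ c.getD z 0 = b ∧ S.getD y 0 = S.getD z 0) ∨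
          (c.getD y 0 = b ∧ c.getD z 0 = a ∧ J.getD y 0 = J.getD z 0)) := by
      have k1 : ∀ y, kemF N J S c a b (S.getD x 0) y N = true ↔
          c.getD y 0 = a ∧ S.getD y 0 = S.getD x 0 := fun y => by
        simp only [kemF, if_true, Bool.and_eq_true, decide_eq_true_eq]
      have k2 : ∀ y z, z ≠ N → (kemF N J S c a b (S.getD x 0) y z = true ↔
          (c.getD y 0 = a ∧ c.getD z 0 = b ∧ S.getD y 0 = S.getD z 0) ∨
          (c.getD y 0 = b ∧ c.getD z 0 = a ∧ J.getD y 0 = J.getD z 0)) := fun y z hz => by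
        simp only [kemF, if_neg hz, Bool.or_eq_true, Bool.and_eq_true, decide_eq_true_eq,
          and_assoc]
      have k3 : ∀ z ∈ Z, z ≠ N := by
        rintro z hz rfl
        have h0 : c.getD z 0 = 0 := h.zero z (by omega)
        rcases ((mem_predL _ (Nat.lt_succ_self z) z).1 hz).2 with h1 | ⟨w, -, h1⟩
        · have := ((k1 z).1 h1).1
          omega
        · by_cases h2 : w = z
          · have := ((k1 z).1 (h2 ▸ h1)).1
            omega
          · have := (k2 z w h2).1 h1
            omega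
      intro y
      rw [hZ, mem_predL _ (Nat.lt_succ_self N), k1, ← hZ]
      constructor
      · rintro ⟨-, h1 | ⟨z, hz, h1⟩⟩
        · exact Or.inl h1
        · exact Or.inr ⟨z, hz, (k2 y z (k3 z hz)).1 h1⟩
      · rintro (h1 | ⟨z, hz, h1⟩)
        · exact ⟨Nat.lt_succ_of_lt (lt y (Or.inl h1.1)), Or.inl h1⟩
        · exact ⟨Nat.lt_succ_of_lt (lt y (h1.imp And.left And.left)),
            Or.inr ⟨z, hz, (k2 y z (k3 z hz)).2 h1⟩⟩
    have lz : ∀ y ∈ Z, y < N := fun y hy => lt y (by
      rcases (key y).1 hy with h1 | ⟨z, -, h1 | h1⟩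
      exacts [Or.inl h1.1, Or.inl h1.1, Or.inr h1.1])
    refine h.step (fun y => y ∈ Z) a1 a2 b1 b2 a3 b3 key ?_ (fun y h1 h2 h3 => ?_)
      (fun y h1 h2 h3 => ?_) fun y h1 h2 => ?_
    · rw [e, if_pos (show x < N from hk), if_pos rfl]
    · rw [e, if_pos (lz y h2), if_neg h1, if_pos h2, if_pos h3]
    · rw [e, if_pos (lz y h2), if_neg h1, if_pos h2, if_neg h3]
    · rw [e, if_neg h1, if_neg h2]
      split_ifs with h3
      · rfl
      · exact (h.zero y (by omega)).symm

variable {n m : ℕ} {G : Digraph (Fin n)}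

theorem ShopSched.sets {T : ℕ} {s : Fin n → Fin m → ℕ} (h : ShopSched m G T s) :
    Sets m G (fun _ => m) T fun v => Finset.univ.image (s v) := by
  refine ⟨fun v t ht => ?_, fun v => ?_, fun t => ?_, fun u v huv a ha b hb => ?_⟩
  · obtain ⟨i, -, rfl⟩ := Finset.mem_image.1 ht
    exact h.1 v i
  · rw [Finset.card_image_of_injective _ (h.2.1 v), Finset.card_univ, Fintype.card_fin]
  · calc _ ≤ (Finset.univ.biUnion fun i : Fin m => Finset.univ.filter fun v => s v i = t).card :=
          Finset.card_le_card fun v hv => by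
            obtain ⟨i, -, e⟩ := Finset.mem_image.1 (Finset.mem_filter.1 hv).2
            exact Finset.mem_biUnion.2 ⟨i, Finset.mem_univ _,
              Finset.mem_filter.2 ⟨Finset.mem_univ _, e⟩⟩
      _ ≤ (Finset.univ : Finset (Fin m)).card * 1 :=
          Finset.card_biUnion_le_card_mul _ _ _ fun i _ => Finset.card_le_one.2 fun u hu v hv =>
            h.2.2.1 i ((Finset.mem_filter.1 hu).2.trans (Finset.mem_filter.1 hv).2.symm)
      _ = m := by simp
  · obtain ⟨i, -, rfl⟩ := Finset.mem_image.1 ha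
    obtain ⟨j, -, rfl⟩ := Finset.mem_image.1 hb
    exact h.2.2.2 u v huv i j

theorem card_range_filter {N : ℕ} (P : ℕ → Prop) [DecidablePred P] :
    ((Finset.range N).filter P).card = (Finset.univ.filter fun x : Fin N => P x).card := by
  rw [Finset.card_filter, Finset.card_filter, Finset.sum_range]

theorem shop_spec (hm : 1 ≤ m) (hG : Acyclic G) : ∃ (T : ℕ) (s : Fin n → Fin m → ℕ),
    shop m (code G) (nodes n fun _ => m) = (ofFn fun v => ofFn (s v)) ∧ ShopSched m G T s ∧
      ∀ T' s', ShopSched m G T' s' → T ≤ T' := by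
  have e0 : nW (code G) = n := by simpa using nW_cd G []
  obtain ⟨H, jb, ix, T, τ, h1, h2, h3, h4, h5, h6⟩ := unitW_spec hm hG fun _ => m
  set E := nodes n fun _ => m with hE
  set S := unitW m (code G) E with hS
  set J := E.map Prod.fst with hJ
  have eJ : ∀ x : Fin H.n, J.getD x 0 = jb x := fun x => by
    have := congrArg Prod.fst (h3 x)
    rw [getD_eq_getElem _ _ (x.2.trans_eq h2.symm)] at this
    rw [getD_eq_getElem _ _ (by rw [length_map, h2]; exact x.2), getElem_map, this]
  have cJ : ∀ v : Fin n, (Finset.univ.filter fun x => jb x = v).card = m := fun v => by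
    rw [Finset.card_eq_sum_ones, h1.sum v fun _ => 1]
    simp
  have hc := colour_spec (m := m) (N := H.n) (J := J) (S := S) (fun y => by
      rw [card_range_filter]
      simp only [eJ]
      by_cases hy : y < n
      · exact le_of_eq ((congrArg _ (Finset.filter_congr fun x _ => by
          rw [Fin.ext_iff])).trans (cJ ⟨y, hy⟩))
      · rw [Finset.filter_false_of_mem fun x _ (e : (jb x).val = y) => hy (e ▸ (jb x).2)]
        exact Nat.zero_le _)
    (fun y => by
      rw [card_range_filter]
      simp only [h4]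
      exact h5.2.1 y) H.n le_rfl
  set c := colour m H.n J S H.n with hc'
  have ex : ∀ (v : Fin n) (i : Fin m), ∃ x : Fin H.n, jb x = v ∧ c.getD x 0 = i + 1 ∧
      ((range H.n).find? fun z => decide (J.getD z 0 = v) && decide (c.getD z 0 = i + 1)).getD 0 =
        x := fun v i => by
    cases e : (range H.n).find? _ with
    | some z =>
      have a1 := mem_range.1 (mem_of_find?_eq_some e)
      have a2 := find?_some e
      rw [Bool.and_eq_true, decide_eq_true_eq, decide_eq_true_eq, eJ ⟨z, a1⟩] at a2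
      exact ⟨⟨z, a1⟩, Fin.ext a2.1, a2.2, rfl⟩
    | none =>
      exfalso
      have a1 : (Finset.univ.filter fun x => jb x = v).image (fun x : Fin H.n => c.getD x 0) =
          Finset.Icc 1 m := by
        refine Finset.eq_of_subset_of_card_le (fun j hj => ?_) ?_
        · obtain ⟨x, -, rfl⟩ := Finset.mem_image.1 hj
          exact Finset.mem_Icc.2 (hc.rng x x.2)
        · rw [Finset.card_image_of_injOn, cJ, Nat.card_Icc]
          · exact le_rfl
          · intro x hx y hy e'
            have a2 := (hc.rng x x.2).1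
            refine Fin.ext (hc.prop x y (by omega) e' (Or.inl ?_))
            rw [eJ, eJ, (Finset.mem_filter.1 (Finset.mem_coe.1 hx)).2,
              (Finset.mem_filter.1 (Finset.mem_coe.1 hy)).2]
      have a2 : i.val + 1 ∈ Finset.Icc 1 m := Finset.mem_Icc.2 ⟨by omega, i.2⟩
      rw [← a1] at a2
      obtain ⟨x, hx, a3⟩ := Finset.mem_image.1 a2
      refine find?_eq_none.1 e x (mem_range.2 x.2) ?_
      rw [Bool.and_eq_true, decide_eq_true_eq, decide_eq_true_eq, eJ,
        (Finset.mem_filter.1 hx).2]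
      exact ⟨rfl, a3⟩
  choose X x1 x2 x3 using ex
  refine ⟨T, fun v i => τ (X v i), ?_, ⟨fun v i => Finset.mem_Icc.1 (h5.1 _), fun v i j e => ?_,
    fun i u v e => ?_, fun u v huv i j => h5.2.2 _ _ ((h1.arc _ _).2 (Or.inr ?_))⟩,
    fun T' s' h' => h6 T' _ h'.sets⟩
  · rw [shop, e0, ← hJ, ← hS, h2, ← hc', table, ← ofFn_val]
    congr 1
    funext v
    rw [← ofFn_val]
    congr 1
    funext i
    rw [x3, h4]
  · have a1 := h1.eq h5 ((x1 v i).trans (x1 v j).symm) e
    have a2 := x2 v i
    rw [a1, x2] at a2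
    exact Fin.ext (by omega)
  · have a1 := x2 u i
    have a2 : (X u i).val = X v i := hc.prop _ _ (by omega) (a1.trans (x2 v i).symm)
      (Or.inr ((h4 _).trans (e.trans (h4 _).symm)))
    rw [← x1 u i, Fin.ext a2, x1]
  · rwa [x1, x1]

theorem search_shop (hm : 1 ≤ m) : ∃ f, PolyTime f ∧ ∀ (n : ℕ) (G : Digraph (Fin n)), Acyclic G →
    ∃ T s, f (code G) = rows (List.ofFn fun v => List.ofFn (s v)) ∧ ShopSched m G T s ∧
      ∀ T' s', ShopSched m G T' s' → T ≤ T' := by
  have hw : PT ∅ fun w : Raw => w.w := PT.listOfRaw PT.id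
  obtain ⟨g, hg, h⟩ : PT ∅ (fun w : Raw => shop m w.w (nodes (nW w.w) fun _ => m)) :=
    pt_shop m hw (pt_nodes (q := fun _ _ => m) (pt_nW hw) (pbd_nW hw) (PT.const m) (PBd.const m))
  refine ⟨g, polyTime_of hg, fun n G hG => ?_⟩
  obtain ⟨T, s, h1, h2⟩ := shop_spec hm hG
  have e0 : nW (code G) = n := by simpa using nW_cd G []
  refine ⟨T, s, (h ⟨code G⟩).trans ?_, h2⟩
  beta_reduce
  rw [rows_eq, e0, h1]

end Vale.Agent.N324P
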